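import Vale.Agent.P154.D6.K0.Main
import Vale.Agent.P154.D6.K1.Main
import Vale.Agent.P154.D6.K2.Main
import Vale.Agent.P154.D6.K3.Main
import Vale.Agent.P154.D6.K4.Main

namespace Vale.Agent.P154.D6

open PolyR Cert

/-- Coefficients of the potentials. -/
noncomputable def cc1 : ℕ → ℝ
  | 0 => (2337 / 2500 : ℝ)
  | 1 => (10657 / 10000 : ℝ)
  | 2 => (12621 / 10000 : ℝ)
  | 3 => (15291 / 10000 : ℝ)
  | 4 => (20743 / 10000 : ℝ)
  | 5 => (5013 / 1250 : ℝ)
  | _ => 0

/-- Coefficients of the potentials. -/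
noncomputable def cc2 : ℕ → ℝ
  | 0 => (-2271 / 1000 : ℝ)
  | 1 => (-1701 / 625 : ℝ)
  | 2 => (-34311 / 10000 : ℝ)
  | 3 => (-49767 / 10000 : ℝ)
  | 4 => (-90867 / 10000 : ℝ)
  | 5 => (-333641 / 10000 : ℝ)
  | _ => 0

/-- Coefficients of the potentials. -/
noncomputable def cc4 : ℕ → ℝ
  | 0 => (25841 / 10000 : ℝ)
  | 1 => (15853 / 5000 : ℝ)
  | 2 => (39979 / 10000 : ℝ)
  | 3 => (66701 / 10000 : ℝ)
  | 4 => (150951 / 10000 : ℝ)
  | 5 => (929339 / 10000 : ℝ)
  | _ => 0

/-- Coefficients of the potentials. -/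
noncomputable def zz : ℕ → ℝ
  | 0 => (99 / 100 : ℝ)
  | 1 => (967 / 1000 : ℝ)
  | 2 => (113 / 125 : ℝ)
  | 3 => (369 / 500 : ℝ)
  | 4 => (409 / 1000 : ℝ)
  | _ => 0

theorem H : ChainHyp 6 (4083 / 10000 : ℝ) cc1 cc2 cc4 zz (77 / 125000 : ℝ) where
  hd := by norm_num
  hl0 := by norm_num
  hl1 := by norm_num
  hld := by norm_num
  hτ' := by norm_num
  hc01 := by simp only [cc1]; norm_num
  hc04 := by simp only [cc4]; norm_num
  hc0 := by simp only [cc1, cc2, cc4]; norm_num
  hcd1 := by simp only [cc1, show 6 - 1 = 5 from rfl]; norm_num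
  hcd4 := by simp only [cc4, show 6 - 1 = 5 from rfl]; norm_num
  hcd := by simp only [cc1, cc2, cc4, show 6 - 1 = 5 from rfl]; norm_num
  hζ0 := by
    intro k hk
    have hk' : k < 5 := by omega
    interval_cases k <;> simp only [zz] <;> norm_num
  hζ1 := by
    intro k hk
    have hk' : k < 5 := by omega
    interval_cases k <;> simp only [zz] <;> norm_num
  hstep := by
    intro k hk x y hx hy hx1 hy1
    have hk' : k < 5 := by omega
    interval_cases k
    · exact K0.step x y hx hy hx1 hy1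
    · exact K1.step x y hx hy hx1 hy1
    · exact K2.step x y hx hy hx1 hy1
    · exact K3.step x y hx hy hx1 hy1
    · exact K4.step x y hx hy hx1 hy1
  hT := by
    intro a b
    have h := Vale.Agent.P154.quad_nonneg (α := (30843082041971203 / 50000000000000000000 : ℝ)) (β := (40658028190487907 / 4000000000000000000000000 : ℝ)) (γ := (239805011212128088242101 / 40000000000000000000000000000 : ℝ)) (a := a) (b := b) (by norm_num) (by norm_num)
    simp only [show 6 - 1 = 5 from rfl, cc1, cc2, cc4, Pq]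
    linarith

/-- Nonreconstruction for `6` children. -/
theorem nonrecon (lam : ℝ) (h0 : 0 ≤ lam) (hdl : ((6 : ℕ) : ℝ) * lam ^ 2 ≤ 1) :
    Filter.Tendsto (reconError 3 6 lam) Filter.atTop (nhds 0) :=
  nonrecon_of_hyp H lam h0 hdl

end Vale.Agent.P154.D6
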